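import Vale.Agent.P322.Glue
import Vale.Agent.P322.RayH.Final
import Vale.Agent.P322.Corner
import Vale.Agent.P322.CornerAv
import Vale.Agent.P322.E1Prop
import Vale.Agent.P322.Full.FullMain

/-!
# P322: the Courtade-Kumar conjecture

For every `n`, every Boolean function `f` on the cube of dimension `n` and every crossover
probability `ε ∈ [0, 1/2]`: if `X` is uniform on the cube and `Y` is the output of `n` independent
binary symmetric channels with crossover probability `ε` on input `X`, then
`I(f(X); Y) ≤ 1 - h₂(ε)` (in bits).

The statement uses only the four definitions below.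
-/

namespace Vale.Agent.Results.P322.CourtadeKumar

/-- `n` independent binary symmetric channels with crossover probability `ε`:
the probability of the output `y` given the input `x`. -/
noncomputable def channel {n : ℕ} (ε : ℝ) (x y : Fin n → Bool) : ℝ :=
  ∏ i, if x i = y i then 1 - ε else ε

/-- the joint probability mass function of `(f(X), Y)`: the probability that `f(X) = b` and
`Y = y`, where `X` is uniform on `{0,1}^n` and `Y` is the output of the channels on input `X`. -/
noncomputable def jointPmf {n : ℕ} (f : (Fin n → Bool) → Bool) (ε : ℝ)
    (b : Bool) (y : Fin n → Bool) : ℝ :=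
  ∑ x, if f x = b then channel ε x y / 2 ^ n else 0

/-- the mutual information (in bits) of a pair of random variables with joint probability mass
function `p` on `α × β`. -/
noncomputable def mutualInformation {α β : Type*} [Fintype α] [Fintype β] (p : α → β → ℝ) : ℝ :=
  ∑ a, ∑ b, p a b * Real.logb 2 (p a b / ((∑ b', p a b') * (∑ a', p a' b)))

/-- the binary entropy function in bits. -/
noncomputable def binaryEntropy (p : ℝ) : ℝ := -p * Real.logb 2 p - (1 - p) * Real.logb 2 (1 - p)

open _root_.P322 in
theorem aux_corner : CornerProp :=
  CornerProp_of_plane (fun _ _ h1 h2 h3 _ _ h4 h5 h6 h7 => corner_pt h1 h2 h3 h4 h5 h6 h7)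

open _root_.P322 in
theorem aux_cav : CAv Gq := glue rayProp scal0Prop E1Prop_holds aux_corner

/-- **The Courtade-Kumar inequality.** -/
theorem result (n : ℕ) (f : (Fin n → Bool) → Bool) (ε : ℝ) (h0 : 0 ≤ ε) (h1 : ε ≤ 1 / 2) :
    mutualInformation (jointPmf f ε) ≤ 1 - binaryEntropy ε :=
  _root_.P322.full_CK_of_CAv aux_cav f ε h0 h1

end Vale.Agent.Results.P322.CourtadeKumar
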