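import Vale.Agent.Results.P322.CourtadeKumar

/-!
# P322: the Courtade-Kumar conjecture, in the notation of the problem (signs `±1`)

`X` is uniform on `{-1,1}^n`, the signs `Z_i` are independent of `X` and of each other with
`Pr(Z_i = -1) = ε`, and `Y = (X_1 Z_1, ..., X_n Z_n)`.
-/

namespace Vale.Agent.Results.P322.CourtadeKumarSigns

/-- the probability that `X = x` and `Z = z`, where `X` is uniform on `{-1,1}^n` and the signs
`Z_i` are independent of `X` and of each other with `Pr(Z_i = -1) = ε`. -/
noncomputable def probXZ {n : ℕ} (ε : ℝ) (x z : Fin n → ℤˣ) : ℝ :=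
  (1 / Fintype.card (Fin n → ℤˣ) : ℝ) * ∏ i, if z i = -1 then ε else 1 - ε

/-- the joint probability mass function of `(f(X), Y)` with `Y = X Z = (X_1 Z_1, ..., X_n Z_n)`:
the probability that `f(X) = b` and `Y = y`. -/
noncomputable def jointLaw {n : ℕ} (f : (Fin n → ℤˣ) → ℤˣ) (ε : ℝ) (b : ℤˣ)
    (y : Fin n → ℤˣ) : ℝ :=
  ∑ x, ∑ z, if f x = b ∧ x * z = y then probXZ ε x z else 0

/-- the mutual information (in bits) of a pair of random variables with joint probability mass
function `p` on `α × β`. -/
noncomputable def mutualInfoBits {α β : Type*} [Fintype α] [Fintype β] (p : α → β → ℝ) : ℝ :=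
  ∑ a, ∑ b, p a b * Real.logb 2 (p a b / ((∑ b', p a b') * (∑ a', p a' b)))

/-- the binary entropy function in bits. -/
noncomputable def entropyBits (p : ℝ) : ℝ := -p * Real.logb 2 p - (1 - p) * Real.logb 2 (1 - p)

/-- bits and signs -/
def toSign : Bool ≃ ℤˣ where
  toFun b := if b then 1 else -1
  invFun u := decide (u = 1)
  left_inv b := by cases b <;> decide
  right_inv u := by
    rcases Int.units_eq_one_or u with h | h <;> subst h <;> decide

theorem sum_noise {n : ℕ} (ε : ℝ) (x y : Fin n → ℤˣ) (c : ℝ) :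
    (∑ z : Fin n → ℤˣ, if x * z = y then c * ∏ i, (if z i = -1 then ε else 1 - ε) else 0)
      = c * ∏ i, if x i = y i then 1 - ε else ε := by
  have hxx : x * x = 1 := by
    funext i; exact Int.units_mul_self (x i)
  have hiff : ∀ z : Fin n → ℤˣ, x * z = y ↔ z = x * y := by
    intro z
    constructor
    · intro h; rw [← h, ← mul_assoc, hxx, one_mul]
    · intro h; rw [h, ← mul_assoc, hxx, one_mul]
  simp only [hiff]
  rw [Finset.sum_ite_eq' Finset.univ (x * y)
    (fun z : Fin n → ℤˣ => c * ∏ i, (if z i = -1 then ε else 1 - ε)), if_pos (Finset.mem_univ _)]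
  congr 1
  refine Finset.prod_congr rfl fun i _ => ?_
  rcases Int.units_eq_one_or (x i) with hx | hx <;> rcases Int.units_eq_one_or (y i) with hy | hy <;>
    simp [Pi.mul_apply, hx, hy]

theorem jointLaw_eq {n : ℕ} (f : (Fin n → ℤˣ) → ℤˣ) (ε : ℝ) (b : Bool) (y : Fin n → Bool) :
    jointLaw f ε (toSign b) (fun i => toSign (y i))
      = CourtadeKumar.jointPmf (fun x : Fin n → Bool => toSign.symm (f fun i => toSign (x i)))
          ε b y := by
  have hcard : (Fintype.card (Fin n → ℤˣ) : ℝ) = 2 ^ n := by
    rw [Fintype.card_pi_const]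
    norm_num
  unfold jointLaw CourtadeKumar.jointPmf
  have h1 : ∀ x : Fin n → ℤˣ,
      (∑ z : Fin n → ℤˣ, if f x = toSign b ∧ (x * z = fun i => toSign (y i))
        then probXZ ε x z else 0)
      = if f x = toSign b then
          (1 / 2 ^ n) * ∏ i, (if x i = toSign (y i) then 1 - ε else ε) else 0 := by
    intro x
    unfold probXZ
    rw [hcard]
    by_cases hb : f x = toSign b
    · simp only [hb, true_and, if_true]
      exact sum_noise ε x (fun i => toSign (y i)) _
    · simp [hb]
  simp only [h1]
  refine (Fintype.sum_equiv (Equiv.piCongrRight fun _ : Fin n => toSign) _ _ ?_).symm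
  intro x
  have e1 : (toSign.symm (f fun i => toSign (x i)) = b) ↔ (f fun i => toSign (x i)) = toSign b :=
    toSign.symm_apply_eq
  have e2 : (Equiv.piCongrRight fun _ : Fin n => toSign) x = fun i => toSign (x i) := rfl
  rw [e2]
  by_cases hb : (f fun i => toSign (x i)) = toSign b
  · rw [if_pos (e1.2 hb), if_pos hb]
    unfold CourtadeKumar.channel
    rw [div_eq_inv_mul, one_div]
    congr 1
    refine Finset.prod_congr rfl fun i _ => ?_
    simp only [toSign.injective.eq_iff]
  · rw [if_neg (fun h => hb (e1.1 h)), if_neg hb]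

/-- **The Courtade-Kumar inequality**, for signs. -/
theorem result (n : ℕ) (f : (Fin n → ℤˣ) → ℤˣ) (ε : ℝ) (h0 : 0 ≤ ε) (h1 : ε ≤ 1 / 2) :
    mutualInfoBits (jointLaw f ε) ≤ 1 - entropyBits ε := by
  have h := CourtadeKumar.result n
    (fun x : Fin n → Bool => toSign.symm (f fun i => toSign (x i))) ε h0 h1
  have e : mutualInfoBits (jointLaw f ε) = CourtadeKumar.mutualInformation
      (CourtadeKumar.jointPmf (fun x : Fin n → Bool => toSign.symm (f fun i => toSign (x i))) ε) := by
    unfold mutualInfoBits CourtadeKumar.mutualInformation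
    refine (Fintype.sum_equiv toSign _ _ fun b => ?_).symm
    refine Fintype.sum_equiv (Equiv.piCongrRight fun _ : Fin n => toSign) _ _ fun y => ?_
    have e2 : (Equiv.piCongrRight fun _ : Fin n => toSign) y = fun i => toSign (y i) := rfl
    rw [e2, jointLaw_eq]
    congr 3
    congr 1
    · refine Fintype.sum_equiv (Equiv.piCongrRight fun _ : Fin n => toSign) _ _ fun y' => ?_
      have e3 : (Equiv.piCongrRight fun _ : Fin n => toSign) y' = fun i => toSign (y' i) := rfl
      rw [e3, jointLaw_eq]
    · refine Fintype.sum_equiv toSign _ _ fun b' => ?_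
      rw [jointLaw_eq]
  rw [e]
  exact h

end Vale.Agent.Results.P322.CourtadeKumarSigns
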